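import Vale.Agent.P002.Surface.Open
import Vale.Agent.P002.Surface.Span
import Vale.Agent.P002.Surface.Clock

/-! The twisted representation space `∏ [a_i,b_i] = ω` and the closure of its integral points
over a subring `R` of `ℂ`. -/

open Matrix

namespace Vale.Agent.P002.Twisted

open Vale.Agent.P002.Surface (Mat Tup comm rel PF PMap sl_induction dense_step mul_adj adj_mul det_adj)

attribute [local instance] Matrix.linftyOpNormedAddCommGroup Matrix.linftyOpNormedSpace
  Matrix.linftyOpNormedRing Matrix.linftyOpNormedAlgebra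

variable {r g h : ℕ} {ω : ℂ} {R : Subring ℂ}

/-- Twisted representations: determinants one and product of commutators equal to `ω`. -/
def Hom (ω : ℂ) (g r : ℕ) : Set (Tup g r) :=
  {x | (∀ i, (x i).1.det = 1 ∧ (x i).2.det = 1) ∧ rel x = ω • (1 : Mat r)}

/-- Matrices with entries in `R`. -/
def IntMat (R : Subring ℂ) (M : Mat r) : Prop := ∀ i j, M i j ∈ R

lemma IntMat.one : IntMat R (1 : Mat r) := fun i j => by
  rw [Matrix.one_apply]; split_ifs
  · exact R.one_mem
  · exact R.zero_mem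

lemma IntMat.mul {M N : Mat r} (hM : IntMat R M) (hN : IntMat R N) : IntMat R (M * N) :=
  fun i j => by rw [Matrix.mul_apply]; exact R.sum_mem fun k _ => R.mul_mem (hM i k) (hN k j)

lemma IntMat.adjugate {M : Mat r} (hM : IntMat R M) : IntMat R M.adjugate := fun i j => by
  let N : Matrix (Fin r) (Fin r) R := Matrix.of fun a b => ⟨M a b, hM a b⟩
  have : N.adjugate.map R.subtype = M.adjugate := by
    rw [← RingHom.mapMatrix_apply, RingHom.map_adjugate]; rfl
  rw [← this]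
  exact (N.adjugate i j).2

lemma IntMat.pow {M : Mat r} (hM : IntMat R M) (n : ℕ) : IntMat R (M ^ n) := by
  induction n with
  | zero => simpa using IntMat.one
  | succ n ih => simpa [pow_succ] using ih.mul hM

lemma IntMat.listProd {L : List (Mat r)} (h : ∀ M ∈ L, IntMat R M) : IntMat R L.prod := by
  induction L with
  | nil => simpa using IntMat.one
  | cons a L ih => simpa using (h a (by simp)).mul (ih fun b hb => h b (by simp [hb]))

lemma IntMat.transvection (i j : Fin r) (n : ℤ) :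
    IntMat R (Matrix.transvection i j (n : ℂ)) := fun a b => by
  simp only [Matrix.transvection, Matrix.add_apply, Matrix.one_apply, Matrix.single_apply]
  refine R.add_mem ?_ ?_ <;> split_ifs
  all_goals first
    | exact R.one_mem
    | exact R.zero_mem
    | exact intCast_mem R n

/-- Integral tuples. -/
def IntTup (R : Subring ℂ) (x : Tup g r) : Prop := ∀ i, IntMat R (x i).1 ∧ IntMat R (x i).2

/-- The Zariski closure of the integral twisted representations. -/
def Cl (ω : ℂ) (R : Subring ℂ) (g r : ℕ) : Set (Tup g r) :=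
  {x | ∀ f ∈ PF (Tup g r), (∀ y ∈ Hom ω g r, IntTup R y → f y = 0) → f x = 0}

lemma Cl.subset_hom {x : Tup g r} (hx : x ∈ Cl ω R g r) : x ∈ Hom ω g r := by
  refine ⟨fun i => ⟨?_, ?_⟩, ?_⟩
  · have h := hx (fun y => (y i).1.det - 1) ((PF _).sub_mem
      (PMap.det' fun a b => (PMap.slot1 i).entry a b) (PF.const 1)) (fun y hy _ => by simp [(hy.1 i).1])
    simpa [sub_eq_zero] using h
  · have h := hx (fun y => (y i).2.det - 1) ((PF _).sub_mem
      (PMap.det' fun a b => (PMap.slot2 i).entry a b) (PF.const 1)) (fun y hy _ => by simp [(hy.1 i).2])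
    simpa [sub_eq_zero] using h
  · ext a b
    have h := hx (fun y => Surface.rel y a b - (ω • (1 : Mat r)) a b)
      ((PF _).sub_mem (PMap.rel.entry a b) (PF.const _)) (fun y hy _ => by simp [hy.2])
    simpa [sub_eq_zero] using h

lemma Cl.image {φ : Tup g r → Tup g r} (hφ : PMap φ)
    (hH : ∀ y ∈ Hom ω g r, IntTup R y → φ y ∈ Hom ω g r ∧ IntTup R (φ y))
    {x : Tup g r} (hx : x ∈ Cl ω R g r) : φ x ∈ Cl ω R g r := by
  intro f hf h
  exact hx (fun y => f (φ y)) (PF.comp hf hφ) fun y hy hi => h _ (hH y hy hi).1 (hH y hy hi).2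

/-- The integral pairs with commutator `ω`. -/
def NSet (ω : ℂ) (R : Subring ℂ) (r : ℕ) : Set (Mat r × Mat r) :=
  {N | N.1.det = 1 ∧ N.2.det = 1 ∧ comm N = ω • (1 : Mat r) ∧ IntMat R N.1 ∧ IntMat R N.2}

/-- The tuple `(a,b,b,a,N,1,…)`. -/
def Mir (h : ℕ) (a b : Mat r) (N : Mat r × Mat r) : Tup (h + 1 + 2) r :=
  Fin.cons (a, b) (Fin.cons (b, a) (Fin.cons N fun _ => (1, 1)))

@[simp] lemma Mir_zero (a b : Mat r) (N) : Mir h a b N 0 = (a, b) := rfl
@[simp] lemma Mir_one (a b : Mat r) (N) : Mir h a b N 1 = (b, a) := rfl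
@[simp] lemma Mir_two (a b : Mat r) (N) : Mir h a b N (0 : Fin (h + 1)).succ.succ = N := rfl
@[simp] lemma Mir_succ (a b : Mat r) (N) (j : Fin h) : Mir h a b N j.succ.succ.succ = (1, 1) := rfl

lemma rel_Mir {a b : Mat r} (ha : a.det = 1) (hb : b.det = 1) (N : Mat r × Mat r) :
    rel (Mir h a b N) = comm N := by
  rw [Surface.rel_split, Mir_zero, Mir_one, ← mul_assoc, Surface.comm_mirror ha hb, one_mul,
    List.ofFn_succ, List.prod_cons, Mir_two]
  simp [Surface.comm_one]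

lemma Mir_mem_hom {a b : Mat r} (ha : a.det = 1) (hb : b.det = 1) {N : Mat r × Mat r}
    (hN : N ∈ NSet ω R r) : Mir h a b N ∈ Hom ω (h + 1 + 2) r :=
  ⟨Fin.cases ⟨ha, hb⟩ (Fin.cases ⟨hb, ha⟩ (Fin.cases ⟨hN.1, hN.2.1⟩ fun _ => ⟨det_one, det_one⟩)),
    (rel_Mir ha hb N).trans hN.2.2.1⟩

lemma Mir_int {a b : Mat r} (ha : IntMat R a) (hb : IntMat R b) {N : Mat r × Mat r}
    (hN : N ∈ NSet ω R r) : IntTup R (Mir h a b N) :=
  Fin.cases ⟨ha, hb⟩ (Fin.cases ⟨hb, ha⟩
    (Fin.cases ⟨hN.2.2.2.1, hN.2.2.2.2⟩ fun _ => ⟨IntMat.one, IntMat.one⟩))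

lemma PMap_mir {T : Type*} [NormedAddCommGroup T] [NormedSpace ℂ T] {φ ψ : T → Mat r}
    (hφ : PMap φ) (hψ : PMap ψ) (N : Mat r × Mat r) :
    PMap (fun t => Mir h (φ t) (ψ t) N) := by
  refine PMap.pi fun i => ?_
  refine Fin.cases ?_ (Fin.cases ?_ (Fin.cases ?_ fun j => ?_)) i
  · exact hφ.prodMk hψ
  · exact hψ.prodMk hφ
  · exact PMap.const _
  · exact PMap.const _

lemma Mir_mem_cl {a b : Mat r} (ha : a.det = 1) (hb : b.det = 1) {N : Mat r × Mat r}
    (hN : N ∈ NSet ω R r) : Mir h a b N ∈ Cl ω R (h + 1 + 2) r := by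
  intro f hf hvan
  let Q : Mat r → Prop := fun M => IntMat R M ∧ M.det = 1
  have hint : ∀ i j : Fin r, i ≠ j → ∀ n : ℤ, ∀ M, Q M → Q (transvection i j (n : ℂ) * M) :=
    fun i j hij n M hM => ⟨(IntMat.transvection i j n).mul hM.1, by
      rw [det_mul, det_transvection_of_ne _ _ hij, hM.2, mul_one]⟩
  have h1 : ∀ A : Mat r, A.det = 1 → ∀ B, Q B → f (Mir h A B N) = 0 := by
    intro A hA B hB
    have := dense_step Q (fun M => f (Mir h M B N))
      (PF.comp hf (PMap_mir PMap.id' (PMap.const B) N)) (fun M hM => hvan _ (Mir_mem_hom hM.2 hB.2 hN)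
        (Mir_int hM.1 hB.1 hN)) hint A hA 1 ⟨IntMat.one, det_one⟩
    simpa using this
  have := dense_step Q (fun M => f (Mir h a M N)) (PF.comp hf (PMap_mir (PMap.const a) PMap.id' N))
    (fun M hM => h1 a ha M hM) hint b hb 1 ⟨IntMat.one, det_one⟩
  simpa using this

/-- The base family. -/
def MirSet (ω : ℂ) (R : Subring ℂ) (h r : ℕ) : Set (Tup (h + 1 + 2) r) :=
  {x | ∃ a b : Mat r, ∃ N ∈ NSet ω R r, a.det = 1 ∧ b.det = 1 ∧ x = Mir h a b N}

lemma MirSet.subset_cl {y : Tup (h + 1 + 2) r} (hy : y ∈ MirSet ω R h r) :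
    y ∈ Cl ω R (h + 1 + 2) r := by
  obtain ⟨a, b, N, hN, ha, hb, rfl⟩ := hy
  exact Mir_mem_cl ha hb hN

/-- Conjugation by a matrix, with adjugate as inverse. -/
def conjTup {g : ℕ} (k : Mat r) (x : Tup g r) : Tup g r :=
  fun i => (k * (x i).1 * k.adjugate, k * (x i).2 * k.adjugate)

lemma rel_conjTup {g : ℕ} {k : Mat r} (hk : k.det = 1) (x : Tup g r)
    (hx : ∀ i, (x i).1.det = 1 ∧ (x i).2.det = 1) :
    rel (conjTup k x) = k * rel x * k.adjugate := by
  have hc : ∀ i, comm (conjTup k x i) = k * comm (x i) * k.adjugate := by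
    intro i
    obtain ⟨K, rfl⟩ : ∃ K : SpecialLinearGroup (Fin r) ℂ, (↑K : Mat r) = k := ⟨⟨k, hk⟩, rfl⟩
    obtain ⟨A, hA⟩ : ∃ K : SpecialLinearGroup (Fin r) ℂ, (↑K : Mat r) = (x i).1 :=
      ⟨⟨_, (hx i).1⟩, rfl⟩
    obtain ⟨B, hB⟩ : ∃ K : SpecialLinearGroup (Fin r) ℂ, (↑K : Mat r) = (x i).2 :=
      ⟨⟨_, (hx i).2⟩, rfl⟩
    have key : K * A * K⁻¹ * (K * B * K⁻¹) * (K * A * K⁻¹)⁻¹ * (K * B * K⁻¹)⁻¹ =
        K * (A * B * A⁻¹ * B⁻¹) * K⁻¹ := by group
    simp only [Surface.comm, conjTup, ← hA, ← hB]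
    exact congrArg (fun G : SpecialLinearGroup (Fin r) ℂ => (↑G : Mat r)) key
  simp only [rel, hc]
  induction g with
  | zero => simp [mul_adj hk]
  | succ n ih =>
    rw [List.ofFn_succ, List.ofFn_succ, List.prod_cons, List.prod_cons,
      ih (fun i => x i.succ) (fun i => hx i.succ) (fun i => hc i.succ)]
    simp only [mul_assoc]
    rw [← mul_assoc k.adjugate k, adj_mul hk, one_mul]

end Vale.Agent.P002.Twisted
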