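import Vale.Agent.P002.Twisted.Basic

/-! Complex twist flows preserve the closure. -/

open Matrix Filter Topology NormedSpace
open Vale.Agent.P002.Surface (Mat Tup PF PMap Generic torus_vanish tlPow exists_generic contDiff_mexp exists_curve)

namespace Vale.Agent.P002.Twisted

attribute [local instance] Matrix.linftyOpNormedAddCommGroup Matrix.linftyOpNormedSpace
  Matrix.linftyOpNormedRing Matrix.linftyOpNormedAlgebra

variable {r h : ℕ} {ω : ℂ} {R : Subring ℂ}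

/-- A twist: a word `word x` and a substitution `act x k k'`, valid when `k` commutes with it. -/
structure Move (ω : ℂ) (R : Subring ℂ) (h r : ℕ) where
  word : Tup (h + 1 + 2) r → Mat r
  act : Tup (h + 1 + 2) r → Mat r → Mat r → Tup (h + 1 + 2) r
  pword : PMap word
  pact : PMap (fun q : Tup (h + 1 + 2) r × (Mat r × Mat r) => act q.1 q.2.1 q.2.2)
  word_det : ∀ x ∈ Hom ω (h + 1 + 2) r, (word x).det = 1
  word_int : ∀ x, IntTup R x → IntMat R (word x)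
  act_hom : ∀ x ∈ Hom ω (h + 1 + 2) r, ∀ k k', k.det = 1 → k' = k.adjugate →
    k * word x = word x * k → act x k k' ∈ Hom ω (h + 1 + 2) r
  act_int : ∀ x k k', IntTup R x → IntMat R k → IntMat R k' → IntTup R (act x k k')
  act_one : ∀ x ∈ Hom ω (h + 1 + 2) r, act x 1 1 = x
  wit : ∀ N ∈ NSet ω R r, ∀ A : Mat r, A.det = 1 →
    ∃ a b : Mat r, a.det = 1 ∧ b.det = 1 ∧ word (Mir h a b N) = A

/-- A flow that preserves the closure along curves through some mirror tuple. -/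
def Nice (ω : ℂ) (R : Subring ℂ) (Ψ : ℂ → Tup (h + 1 + 2) r → Tup (h + 1 + 2) r) : Prop :=
  ContDiff ℂ 1 (fun q : ℂ × Tup (h + 1 + 2) r => Ψ q.1 q.2) ∧
  (∀ x ∈ Hom ω (h + 1 + 2) r, Ψ 0 x = x) ∧
  ∀ N ∈ NSet ω R r, ∃ a b : Mat r, a.det = 1 ∧ b.det = 1 ∧
    ∀ x : ℂ → Tup (h + 1 + 2) r, ContDiff ℂ 1 x → (∀ z, x z ∈ Cl ω R (h + 1 + 2) r) →
      x 0 = Mir h a b N → ∀ u z, Ψ u (x z) ∈ Cl ω R (h + 1 + 2) r

/-- The one-parameter flow of a move. -/
noncomputable def Move.flow (M : Move ω R h r) (m : ℕ) (u : ℂ) (x : Tup (h + 1 + 2) r) :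
    Tup (h + 1 + 2) r :=
  M.act x (exp (u • tlPow m (M.word x))) (exp (-(u • tlPow m (M.word x))))

lemma Move.flow_contDiff (M : Move ω R h r) (m : ℕ) :
    ContDiff ℂ 1 (fun q : ℂ × Tup (h + 1 + 2) r => M.flow m q.1 q.2) := by
  have h1 : ContDiff ℂ 1 (fun q : ℂ × Tup (h + 1 + 2) r => q.1 • tlPow m (M.word q.2)) :=
    contDiff_fst.smul ((M.pword.tlPow m).contDiff.comp contDiff_snd)
  exact M.pact.contDiff.comp
    (contDiff_snd.prodMk ((contDiff_mexp.comp h1).prodMk (contDiff_mexp.comp h1.neg)))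

lemma Move.nice (M : Move ω R h r) (m : ℕ) : Nice ω R (M.flow m) := by
  refine ⟨M.flow_contDiff m, fun x hx => by simp [Move.flow, exp_zero, M.act_one x hx], ?_⟩
  intro N hN
  obtain ⟨lam, hl, hinj⟩ := exists_generic r
  obtain ⟨a, b, ha, hb, hab⟩ := M.wit N hN _ hl.det
  refine ⟨a, b, ha, hb, fun x hx hcl hx0 u z => ?_⟩
  intro f hf hvan
  let F : ℂ → ℂ := fun w => f (M.flow m u (x w))
  have hF : Differentiable ℂ F :=
    ((PF.contDiff hf).comp ((M.flow_contDiff m).comp (contDiff_const.prodMk hx))).differentiable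
      one_ne_zero
  have hev : ∀ᶠ w in 𝓝 (0 : ℂ), F w = 0 := by
    have hf' : (fun q : Tup (h + 1 + 2) r × (Mat r × Mat r) => f (M.act q.1 q.2.1 q.2.2)) ∈
        PF (Tup (h + 1 + 2) r × (Mat r × Mat r)) := PF.comp hf M.pact
    have hc : Tendsto (fun w => M.word (x w)) (𝓝 0) (𝓝 (diagonal lam)) := by
      have h' : Continuous (fun w => M.word (x w)) := (M.pword.contDiff.comp hx).continuous
      have := h'.tendsto 0
      rwa [hx0, hab] at this
    filter_upwards [hc.eventually (torus_vanish hl hinj hf')] with w hw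
    refine hw (M.word_det _ (Cl.subset_hom (hcl w))) (x w) (fun n => ?_) u m
    have hφ : PMap (fun y : Tup (h + 1 + 2) r => M.act y (M.word y ^ n) ((M.word y ^ n).adjugate)) :=
      M.pact.comp (PMap.id'.prodMk ((M.pword.mpow n).prodMk (M.pword.mpow n).adjugate))
    exact hcl w (fun y => f (M.act y (M.word y ^ n) ((M.word y ^ n).adjugate))) (PF.comp hf hφ)
      fun y hy hi => hvan _
        (M.act_hom y hy _ _ (by rw [det_pow, M.word_det y hy, one_pow]) rfl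
          ((Commute.refl _).pow_left n))
        (M.act_int y _ _ hi ((M.word_int y hi).pow n) ((M.word_int y hi).pow n).adjugate)
  have := (show AnalyticOnNhd ℂ F Set.univ from fun w _ =>
    hF.analyticAt w).eqOn_zero_of_preconnected_of_eventuallyEq_zero
    isPreconnected_univ (Set.mem_univ (0 : ℂ)) hev (Set.mem_univ z)
  exact this

/-- A symmetry of the closure and of the mirror family. -/
structure Symm (ω : ℂ) (R : Subring ℂ) (h r : ℕ) where
  fwd : Tup (h + 1 + 2) r → Tup (h + 1 + 2) r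
  bwd : Tup (h + 1 + 2) r → Tup (h + 1 + 2) r
  pfwd : PMap fwd
  pbwd : PMap bwd
  fwd_hom : ∀ y ∈ Hom ω (h + 1 + 2) r, fwd y ∈ Hom ω (h + 1 + 2) r
  bwd_hom : ∀ y ∈ Hom ω (h + 1 + 2) r, bwd y ∈ Hom ω (h + 1 + 2) r
  fwd_int : ∀ y, IntTup R y → IntTup R (fwd y)
  bwd_int : ∀ y, IntTup R y → IntTup R (bwd y)
  fwd_bwd : ∀ y ∈ Hom ω (h + 1 + 2) r, fwd (bwd y) = y
  bwd_fwd : ∀ y ∈ Hom ω (h + 1 + 2) r, bwd (fwd y) = y
  bwd_N : ∀ N ∈ NSet ω R r, ∃ N' ∈ NSet ω R r, ∀ a b : Mat r, a.det = 1 → b.det = 1 →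
    ∃ a' b' : Mat r, a'.det = 1 ∧ b'.det = 1 ∧ fwd (Mir h a b N') = Mir h a' b' N

lemma Nice.conj {Ψ : ℂ → Tup (h + 1 + 2) r → Tup (h + 1 + 2) r} (hΨ : Nice ω R Ψ)
    (φ : Symm ω R h r) : Nice ω R (fun u x => φ.fwd (Ψ u (φ.bwd x))) := by
  obtain ⟨hc, h0, hp⟩ := hΨ
  refine ⟨φ.pfwd.contDiff.comp (hc.comp (contDiff_fst.prodMk (φ.pbwd.contDiff.comp contDiff_snd))),
    fun x hx => by show φ.fwd _ = x; rw [h0 _ (φ.bwd_hom x hx), φ.fwd_bwd x hx],
    fun N hN => ?_⟩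
  obtain ⟨N', hN', hmir⟩ := φ.bwd_N N hN
  obtain ⟨a, b, ha, hb, hw⟩ := hp N' hN'
  obtain ⟨a', b', ha', hb', he⟩ := hmir a b ha hb
  refine ⟨a', b', ha', hb', fun x hx hcl hx0 u z => ?_⟩
  refine Cl.image φ.pfwd (fun y hy hi => ⟨φ.fwd_hom y hy, φ.fwd_int y hi⟩) ?_
  refine hw (fun z => φ.bwd (x z)) (φ.pbwd.contDiff.comp hx)
    (fun z => Cl.image φ.pbwd (fun y hy hi => ⟨φ.bwd_hom y hy, φ.bwd_int y hi⟩) (hcl z)) ?_ u z
  show φ.bwd (x 0) = _
  rw [hx0, ← he, φ.bwd_fwd _ (Mir_mem_hom ha hb hN')]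

/-- Compose a list of flows at times `t`. -/
def compose : (n : ℕ) → (Fin n → ℂ → Tup (h + 1 + 2) r → Tup (h + 1 + 2) r) → (Fin n → ℂ) →
    Tup (h + 1 + 2) r → Tup (h + 1 + 2) r
  | 0, _, _, x => x
  | n + 1, Ψ, t, x => Ψ 0 (t 0) (compose n (fun i => Ψ i.succ) (fun i => t i.succ) x)

lemma compose_contDiff : ∀ (n : ℕ) (Ψ : Fin n → ℂ → Tup (h + 1 + 2) r → Tup (h + 1 + 2) r),
    (∀ i, Nice ω R (Ψ i)) →
    ContDiff ℂ 1 (fun q : (Fin n → ℂ) × Tup (h + 1 + 2) r => compose n Ψ q.1 q.2)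
  | 0, _, _ => contDiff_snd
  | n + 1, Ψ, hΨ => by
    have ih := compose_contDiff n (fun i => Ψ i.succ) fun i => hΨ i.succ
    have ht : ContDiff ℂ 1 (fun q : (Fin (n + 1) → ℂ) × Tup (h + 1 + 2) r =>
        (fun i : Fin n => q.1 i.succ)) :=
      contDiff_pi.2 fun i => (contDiff_apply ℂ ℂ i.succ).comp contDiff_fst
    exact (hΨ 0).1.comp (((contDiff_apply ℂ ℂ (0 : Fin (n + 1))).comp contDiff_fst).prodMk
      (ih.comp (ht.prodMk contDiff_snd)))

lemma compose_zero : ∀ (n : ℕ) (Ψ : Fin n → ℂ → Tup (h + 1 + 2) r → Tup (h + 1 + 2) r),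
    (∀ i, Nice ω R (Ψ i)) → ∀ x ∈ Hom ω (h + 1 + 2) r, compose n Ψ 0 x = x
  | 0, _, _, _, _ => rfl
  | n + 1, Ψ, hΨ, x, hx => by
    show Ψ 0 0 (compose n (fun i => Ψ i.succ) 0 x) = x
    rw [compose_zero n _ (fun i => hΨ i.succ) x hx, (hΨ 0).2.1 x hx]

lemma compose_single : ∀ (n : ℕ) (Ψ : Fin n → ℂ → Tup (h + 1 + 2) r → Tup (h + 1 + 2) r),
    (∀ i, Nice ω R (Ψ i)) → ∀ (i : Fin n) (u : ℂ) (x : Tup (h + 1 + 2) r), x ∈ Hom ω (h + 1 + 2) r →
      Ψ i u x ∈ Hom ω (h + 1 + 2) r → compose n Ψ (Pi.single i u) x = Ψ i u x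
  | 0, _, _, i, _, _, _, _ => i.elim0
  | n + 1, Ψ, hΨ, i, u, x, hx, hux => by
    refine Fin.cases ?_ (fun j => ?_) i hux
    · intro _
      show Ψ 0 _ (compose n (fun i => Ψ i.succ) _ x) = Ψ 0 u x
      have e : (fun i : Fin n => Pi.single (M := fun _ : Fin (n + 1) => ℂ) 0 u i.succ) = 0 :=
        funext fun i => Pi.single_eq_of_ne (Fin.succ_ne_zero i) u
      rw [Pi.single_eq_same, e,
        compose_zero n _ (fun i => hΨ i.succ) x hx]
    · intro hj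
      show Ψ 0 _ (compose n (fun i => Ψ i.succ) _ x) = Ψ j.succ u x
      have e : (fun k : Fin n => Pi.single (M := fun _ : Fin (n + 1) => ℂ) j.succ u k.succ) =
          Pi.single (M := fun _ : Fin n => ℂ) j u := by
        funext k; simp [Pi.single_apply, Fin.succ_inj]
      rw [e, compose_single n _ (fun i => hΨ i.succ) j u x hx hj,
        Pi.single_eq_of_ne (Fin.succ_ne_zero j).symm, (hΨ 0).2.1 _ hj]

lemma compose_mem_cl : ∀ (n : ℕ) (Ψ : Fin n → ℂ → Tup (h + 1 + 2) r → Tup (h + 1 + 2) r),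
    (∀ i, Nice ω R (Ψ i)) → ∀ y ∈ MirSet ω R h r, ∀ t, compose n Ψ t y ∈ Cl ω R (h + 1 + 2) r
  | 0, _, _, y, hy, _ => MirSet.subset_cl hy
  | n + 1, Ψ, hΨ, y, hy, t => by
    obtain ⟨hc, -, hp'⟩ := hΨ 0
    obtain ⟨a, b, N, hN, ha, hb, rfl⟩ := hy
    obtain ⟨a', b', ha', hb', hp⟩ := hp' N hN
    obtain ⟨ca, hca, hcad, hca0, hca1⟩ := exists_curve ha' ha
    obtain ⟨cb, hcb, hcbd, hcb0, hcb1⟩ := exists_curve hb' hb
    let rest := compose n (fun i => Ψ i.succ)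
    let line : ℂ → Tup (h + 1 + 2) r := fun z =>
      rest (z • fun i => t i.succ) (Mir h (ca z) (cb z) N)
    have hmir : ContDiff ℂ 1 (fun z => Mir h (ca z) (cb z) N) :=
      (PMap_mir (T := Mat r × Mat r) PMap.fst PMap.snd N).contDiff.comp (hca.prodMk hcb)
    have hline : ContDiff ℂ 1 line := (compose_contDiff n _ fun i => hΨ i.succ).comp
      ((contDiff_id.smul contDiff_const).prodMk hmir)
    have h0 : line 0 = Mir h a' b' N := by
      simp only [line, rest, zero_smul, hca0, hcb0]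
      exact compose_zero n _ (fun i => hΨ i.succ) _ (Mir_mem_hom ha' hb' hN)
    have := hp line hline (fun z => compose_mem_cl n _ (fun i => hΨ i.succ) _
      ⟨_, _, N, hN, hcad z, hcbd z, rfl⟩ _) h0 (t 0) 1
    show Ψ 0 (t 0) (rest (fun i => t i.succ) (Mir h a b N)) ∈ Cl ω R (h + 1 + 2) r
    simpa [line, hca1, hcb1] using this

end Vale.Agent.P002.Twisted
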