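import Vale.Agent.P002.Twisted.Moves

/-! At the point `(A,B,B,A,A,B,1,…)` the twist velocities span the linearised equations. -/

open Matrix NormedSpace

namespace Vale.Agent.P002.Twisted

open Vale.Agent.P002.Surface (Mat Tup comm rel PF PMap PairSym idSym twA twB Sim Weyl wt delta mul_adj adj_mul det_adj mul_adj_cancel adj_mul_cancel pow_comm_left pow_comm_right sim_mul_pow hasDerivAt_expu hasDerivAt_expu_neg dfst dsnd tlPow dense_step with01 with1j with1j_succ mid mid_eq)

attribute [local instance] Matrix.linftyOpNormedAddCommGroup Matrix.linftyOpNormedSpace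
  Matrix.linftyOpNormedRing Matrix.linftyOpNormedAlgebra

attribute [-simp] Fin.succ_zero_eq_one Fin.succ_one_eq_two Fin.succ_zero_eq_one' Fin.succ_one_eq_two'

variable {r h : ℕ} {ω : ℂ} {R : Subring ℂ}

@[simp] lemma Mir_succ_zero (a b : Mat r) (N : Mat r × Mat r) :
    Mir h a b N (Fin.succ 0) = (b, a) := rfl

@[simp] lemma slot1_eq : ((0 : Fin (h + 1 + 1)).succ : Fin (h + 1 + 2)) = 1 := rfl

/-- Velocities at `p` of nice flows. -/
def Vel (ω : ℂ) (R : Subring ℂ) (p : Tup (h + 1 + 2) r) : Set (Tup (h + 1 + 2) r) :=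
  {v | ∃ Ψ : ℂ → Tup (h + 1 + 2) r → Tup (h + 1 + 2) r, Nice ω R Ψ ∧ HasDerivAt (fun u => Ψ u p) v 0}

/-- The linearised equations at `(A,B,B,A,A,B,1,…)`. -/
def Tan (A B : Mat r) (Y : Tup (h + 1 + 2) r) : Prop :=
  (∀ i, (Y i).1.trace = 0 ∧ (Y i).2.trace = 0) ∧
    delta A B (Y 0) + delta B A (Y 1) + delta A B (Y (0 : Fin (h + 1)).succ.succ) = 0

lemma int_pair {ψ : PairSym r} (hg : ∀ P : Mat r × Mat r, IntMat R P.1 → IntMat R P.2 →
    IntMat R (ψ.g P).1 ∧ IntMat R (ψ.g P).2) {N : Mat r × Mat r} (hN : N ∈ NSet ω R r) :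
    ψ.g N ∈ NSet ω R r :=
  ⟨(ψ.g_ok N hN.1 hN.2.1).1, (ψ.g_ok N hN.1 hN.2.1).2.1,
    (ψ.g_ok N hN.1 hN.2.1).2.2.1.trans hN.2.2.1, hg N hN.2.2.2.1 hN.2.2.2.2⟩

/-- Integrality of a handle substitution. -/
def Integral (R : Subring ℂ) (ψ : PairSym r) : Prop :=
  ∀ P : Mat r × Mat r, IntMat R P.1 → IntMat R P.2 →
    (IntMat R (ψ.f P).1 ∧ IntMat R (ψ.f P).2) ∧ (IntMat R (ψ.g P).1 ∧ IntMat R (ψ.g P).2)

lemma integral_id : Integral R (idSym r) := fun _ h1 h2 => ⟨⟨h1, h2⟩, ⟨h1, h2⟩⟩

lemma integral_twA : Integral R (twA r) :=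
  fun _ h1 h2 => ⟨⟨h1.mul h2, h2⟩, ⟨h1.mul h2.adjugate, h2⟩⟩

lemma integral_twB : Integral R (twB r) :=
  fun _ h1 h2 => ⟨⟨h1, h2.mul h1⟩, ⟨h1, h2.mul h1.adjugate⟩⟩

/-- The symmetry applying `φ i` on handle `i`. -/
def slotSym (φ : Fin (h + 1 + 2) → PairSym r) (hi : ∀ i, Integral R (φ i))
    (hm : ∀ N ∈ NSet ω R r, ∃ N' ∈ NSet ω R r, ∀ a b : Mat r, a.det = 1 → b.det = 1 →
      ∃ a' b' : Mat r, a'.det = 1 ∧ b'.det = 1 ∧
        (fun i => (φ i).f (Mir h a b N' i)) = Mir h a' b' N) : Symm ω R h r where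
  fwd x i := (φ i).f (x i)
  bwd x i := (φ i).g (x i)
  pfwd := PMap.pi fun i => (φ i).pf.comp (PMap.proj i)
  pbwd := PMap.pi fun i => (φ i).pg.comp (PMap.proj i)
  fwd_hom y hy := by
    refine ⟨fun i => ?_, ?_⟩
    · exact ⟨((φ i).f_ok _ (hy.1 i).1 (hy.1 i).2).1, ((φ i).f_ok _ (hy.1 i).1 (hy.1 i).2).2.1⟩
    · refine Eq.trans ?_ hy.2
      exact congrArg (fun F => (List.ofFn F).prod)
        (funext fun i => ((φ i).f_ok _ (hy.1 i).1 (hy.1 i).2).2.2.1)
  bwd_hom y hy := by
    refine ⟨fun i => ?_, ?_⟩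
    · exact ⟨((φ i).g_ok _ (hy.1 i).1 (hy.1 i).2).1, ((φ i).g_ok _ (hy.1 i).1 (hy.1 i).2).2.1⟩
    · refine Eq.trans ?_ hy.2
      exact congrArg (fun F => (List.ofFn F).prod)
        (funext fun i => ((φ i).g_ok _ (hy.1 i).1 (hy.1 i).2).2.2.1)
  fwd_int y hy i := (hi i _ (hy i).1 (hy i).2).1
  bwd_int y hy i := (hi i _ (hy i).1 (hy i).2).2
  fwd_bwd y hy := funext fun i => ((φ i).g_ok _ (hy.1 i).1 (hy.1 i).2).2.2.2
  bwd_fwd y hy := funext fun i => ((φ i).f_ok _ (hy.1 i).1 (hy.1 i).2).2.2.2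
  bwd_N := hm

/-- Slots `(twB, twA, twB, id, …)`. -/
def symA (ω : ℂ) (R : Subring ℂ) (h r : ℕ) : Symm ω R h r :=
  slotSym (Fin.cons (twB r) (Fin.cons (twA r) (Fin.cons (twB r) fun _ => idSym r)))
    (Fin.cases integral_twB (Fin.cases integral_twA (Fin.cases integral_twB fun _ => integral_id)))
    (by
      intro N hN
      refine ⟨(twB r).g N, int_pair (fun P h1 h2 => (integral_twB P h1 h2).2) hN,
        fun a b ha hb => ⟨a, b * a, ha, by rw [det_mul, ha, hb, one_mul], funext fun i => ?_⟩⟩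
      exact Fin.cases rfl (Fin.cases rfl (Fin.cases ((twB r).g_ok N hN.1 hN.2.1).2.2.2 fun _ => rfl)) i)

/-- Slots `(twA, twB, twA, id, …)`. -/
def symB (ω : ℂ) (R : Subring ℂ) (h r : ℕ) : Symm ω R h r :=
  slotSym (Fin.cons (twA r) (Fin.cons (twB r) (Fin.cons (twA r) fun _ => idSym r)))
    (Fin.cases integral_twA (Fin.cases integral_twB (Fin.cases integral_twA fun _ => integral_id)))
    (by
      intro N hN
      refine ⟨(twA r).g N, int_pair (fun P h1 h2 => (integral_twA P h1 h2).2) hN,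
        fun a b ha hb => ⟨a * b, b, by rw [det_mul, ha, hb, one_mul], hb, funext fun i => ?_⟩⟩
      exact Fin.cases rfl (Fin.cases rfl (Fin.cases ((twA r).g_ok N hN.1 hN.2.1).2.2.2 fun _ => rfl)) i)

/-- Slots `twA` on handle `j+3` only. -/
def symJ (ω : ℂ) (R : Subring ℂ) (r : ℕ) (j : Fin h) : Symm ω R h r :=
  slotSym (Fin.cons (idSym r) (Fin.cons (idSym r) (Fin.cons (idSym r)
      fun i => if i = j then twA r else idSym r)))
    (Fin.cases integral_id (Fin.cases integral_id (Fin.cases integral_id fun i => by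
      by_cases hk : i = j
      · simpa [hk] using integral_twA
      · simpa [hk] using integral_id)))
    (by
      intro N hN
      refine ⟨N, hN, fun a b ha hb => ⟨a, b, ha, hb, funext fun i => ?_⟩⟩
      refine Fin.cases rfl (Fin.cases rfl (Fin.cases rfl fun k => ?_)) i
      by_cases hk : k = j <;> simp [hk, twA, idSym])

lemma Vel.map (φ : Symm ω R h r) {p : Tup (h + 1 + 2) r} (hp : p ∈ Hom ω (h + 1 + 2) r)
    (L : Tup (h + 1 + 2) r →ₗ[ℂ] Tup (h + 1 + 2) r)
    (hL : ∀ (c : ℂ → Tup (h + 1 + 2) r) v, HasDerivAt c v 0 → c 0 = p →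
      HasDerivAt (fun u => φ.fwd (c u)) (L v) 0)
    {v : Tup (h + 1 + 2) r} (hv : v ∈ Submodule.span ℂ (Vel ω R p)) :
    L v ∈ Submodule.span ℂ (Vel ω R (φ.fwd p)) := by
  have hsub : L '' Vel ω R p ⊆ Vel ω R (φ.fwd p) := by
    rintro _ ⟨w, ⟨Ψ, hΨ, hw⟩, rfl⟩
    refine ⟨_, hΨ.conj φ, ?_⟩
    have h := hL (fun u => Ψ u p) w hw (hΨ.2.1 p hp)
    simpa [φ.bwd_fwd p hp] using h
  exact Submodule.span_mono hsub (Submodule.map_span L (Vel ω R p) ▸ Submodule.mem_map_of_mem hv)


lemma conj_mem_cl {k : Mat r} (hk : k.det = 1) {x : Tup (h + 1 + 2) r}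
    (hx : x ∈ Cl ω R (h + 1 + 2) r) : conjTup k x ∈ Cl ω R (h + 1 + 2) r := by
  intro f hf hvan
  let Q : Mat r → Prop := fun M => IntMat R M ∧ M.det = 1
  have hint : ∀ i j : Fin r, i ≠ j → ∀ n : ℤ, ∀ M, Q M → Q (transvection i j (n : ℂ) * M) :=
    fun i j hij n M hM => ⟨(IntMat.transvection i j n).mul hM.1, by
      rw [det_mul, det_transvection_of_ne _ _ hij, hM.2, mul_one]⟩
  have hp : PMap (fun M : Mat r => conjTup M x) := PMap.pi fun i =>
    ((PMap.id'.mul (PMap.const _)).mul PMap.id'.adjugate).prodMk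
      ((PMap.id'.mul (PMap.const _)).mul PMap.id'.adjugate)
  have key : ∀ M, Q M → f (conjTup M x) = 0 := by
    intro M hM
    refine Cl.image (φ := conjTup M) ?_ ?_ hx f hf hvan
    · exact PMap.pi fun i => (((PMap.const _).mul (PMap.slot1 i)).mul (PMap.const _)).prodMk
        (((PMap.const _).mul (PMap.slot2 i)).mul (PMap.const _))
    · intro y hy hi
      refine ⟨⟨fun i => ⟨?_, ?_⟩, ?_⟩, fun i => ⟨(hM.1.mul (hi i).1).mul hM.1.adjugate,
        (hM.1.mul (hi i).2).mul hM.1.adjugate⟩⟩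
      · show (M * (y i).1 * M.adjugate).det = 1
        rw [det_mul, det_mul, hM.2, (hy.1 i).1, det_adj hM.2]; norm_num
      · show (M * (y i).2 * M.adjugate).det = 1
        rw [det_mul, det_mul, hM.2, (hy.1 i).2, det_adj hM.2]; norm_num
      · rw [rel_conjTup hM.2 y hy.1, hy.2, mul_smul_comm, smul_mul_assoc, mul_one, mul_adj hM.2]
  have := dense_step Q (fun M => f (conjTup M x)) (PF.comp hf hp) key hint k hk 1
    ⟨IntMat.one, det_one⟩
  simpa using this

lemma vel_elementary {g0 : Mat r} (hg : g0.det = 1) {i j : Fin r} (hij : i ≠ j)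
    {p : Tup (h + 1 + 2) r} (hp : p ∈ Hom ω (h + 1 + 2) r) :
    (fun s => ((g0 * single i j 1 * g0.adjugate) * (p s).1 - (p s).1 * (g0 * single i j 1 * g0.adjugate),
      (g0 * single i j 1 * g0.adjugate) * (p s).2 - (p s).2 * (g0 * single i j 1 * g0.adjugate)) :
        Tup (h + 1 + 2) r) ∈ Vel ω R p := by
  set W := g0 * single i j 1 * g0.adjugate with hW
  have hsq : W * W = 0 := by
    have : single i j (1 : ℂ) * single i j 1 = 0 := single_mul_single_of_ne _ _ _ _ hij.symm _
    calc W * W = g0 * single i j 1 * (g0.adjugate * g0) * single i j 1 * g0.adjugate := by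
          simp only [hW, mul_assoc]
      _ = 0 := by rw [adj_mul hg, mul_one, mul_assoc g0, this, mul_zero, zero_mul]
  have hk : ∀ u : ℂ, (1 + u • W).det = 1 ∧ (1 + u • W).adjugate = 1 - u • W := by
    intro u
    have e : 1 + u • W = g0 * transvection i j u * g0.adjugate := by
      have h2 : transvection i j u = (1 : Mat r) + u • single i j 1 := by simp [transvection]
      rw [h2, mul_add, mul_one, add_mul, mul_adj hg, mul_smul_comm, smul_mul_assoc, hW]
    have hd : (1 + u • W).det = 1 := by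
      rw [e, det_mul, det_mul, hg, det_adj hg, det_transvection_of_ne _ _ hij]; norm_num
    refine ⟨hd, left_inv_eq_right_inv (adj_mul hd) ?_⟩
    simp [mul_sub, add_mul, smul_smul, hsq]
  let Ψ : ℂ → Tup (h + 1 + 2) r → Tup (h + 1 + 2) r := fun u x s =>
    ((1 + u • W) * (x s).1 * (1 - u • W), (1 + u • W) * (x s).2 * (1 - u • W))
  have hΨ : ∀ u x, Ψ u x = conjTup (1 + u • W) x := fun u x => by
    funext s; simp only [Ψ, conjTup, (hk u).2]
  refine ⟨Ψ, ⟨?_, fun x _ => by funext s; simp [Ψ], fun N hN => ?_⟩, ?_⟩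
  · refine contDiff_pi.2 fun s => ?_
    have hu : ContDiff ℂ 1 (fun q : ℂ × Tup (h + 1 + 2) r => q.1 • W) :=
      contDiff_fst.smul contDiff_const
    have hs : ContDiff ℂ 1 (fun q : ℂ × Tup (h + 1 + 2) r => q.2 s) :=
      (contDiff_apply ℂ (Mat r × Mat r) s).comp contDiff_snd
    exact (((contDiff_const.add hu).mul (contDiff_fst.comp hs)).mul (contDiff_const.sub hu)).prodMk
      (((contDiff_const.add hu).mul (contDiff_snd.comp hs)).mul (contDiff_const.sub hu))
  · exact ⟨1, 1, det_one, det_one, fun x _ hcl _ u z => by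
      rw [hΨ]; exact conj_mem_cl (hk u).1 (hcl z)⟩
  · refine hasDerivAt_pi.2 fun s => ?_
    have h1 : HasDerivAt (fun u : ℂ => 1 + u • W) W 0 := by
      simpa using (Surface.hasDerivAt_line (1 : Mat r) W)
    have h2 : HasDerivAt (fun u : ℂ => 1 - u • W) (-W) 0 := by
      simpa [sub_eq_add_neg] using (Surface.hasDerivAt_line (1 : Mat r) (-W))
    simpa [Ψ, ← sub_eq_add_neg] using
      ((h1.mul_const (p s).1).mul h2).prodMk ((h1.mul_const (p s).2).mul h2)

lemma vel_conj {p : Tup (h + 1 + 2) r} (hp : p ∈ Hom ω (h + 1 + 2) r) {W : Mat r}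
    (hW : W.trace = 0) :
    (fun s => (W * (p s).1 - (p s).1 * W, W * (p s).2 - (p s).2 * W) : Tup (h + 1 + 2) r) ∈
      Submodule.span ℂ (Vel ω R p) := by
  classical
  let L : Mat r →ₗ[ℂ] Tup (h + 1 + 2) r :=
    { toFun := fun W s => (W * (p s).1 - (p s).1 * W, W * (p s).2 - (p s).2 * W)
      map_add' := fun V W => by
        funext s; simp [add_mul, mul_add] <;> constructor <;> abel
      map_smul' := fun c V => by
        funext s; simp [smul_sub] }
  let S := (Submodule.span ℂ (Vel ω R p)).comap L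
  have off : ∀ {g0 : Mat r}, g0.det = 1 → ∀ {i j : Fin r}, i ≠ j →
      g0 * single i j 1 * g0.adjugate ∈ S := fun hg _ _ hij =>
    Submodule.subset_span (vel_elementary hg hij hp)
  have e1 : ∀ {i j : Fin r}, i ≠ j → single i j (1 : ℂ) ∈ S := fun {i j} hij => by
    simpa using off (det_one (R := ℂ)) hij
  have e2 : ∀ {i j : Fin r}, i ≠ j → single j j (1 : ℂ) - single i i 1 ∈ S := fun {i j} hij => by
    have hd : (transvection j i (1 : ℂ)).det = 1 := det_transvection_of_ne _ _ hij.symm _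
    have hi : (transvection j i (1 : ℂ)).adjugate = transvection j i (-1) := by
      refine left_inv_eq_right_inv (adj_mul hd) ?_
      rw [transvection_mul_transvection_same _ _ hij.symm]; simp
    have h0 := off hd hij
    rw [hi] at h0
    have e : transvection j i (1 : ℂ) * single i j 1 * transvection j i (-1) =
        single i j 1 + (single j j 1 - single i i 1) - single j i 1 := by
      rw [show transvection j i (-1 : ℂ) = 1 - single j i 1 by
        simp [transvection, sub_eq_add_neg, single_neg]]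
      simp only [transvection, add_mul, mul_add, mul_sub, one_mul, mul_one, single_mul_single_same]
      abel
    rw [e] at h0
    convert S.add_mem (S.sub_mem h0 (e1 hij)) (e1 hij.symm) using 1
    abel
  show W ∈ S
  rcases Nat.eq_zero_or_pos r with h0 | h0
  · subst h0
    rw [show W = 0 from Matrix.ext fun i => i.elim0]; exact S.zero_mem
  let i0 : Fin r := ⟨0, h0⟩
  have hdec : W = ∑ i, ∑ j, (if i = j then W i i • (single i i 1 - single i0 i0 1)
      else W i j • single i j (1 : ℂ)) := by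
    conv_lhs => rw [matrix_eq_sum_single W]
    have hz : ∑ i, W i i • single i0 i0 (1 : ℂ) = 0 := by
      rw [← Finset.sum_smul, show ∑ i, W i i = W.trace from rfl, hW, zero_smul]
    have : ∀ i j, (if i = j then W i i • (single i i 1 - single i0 i0 1)
        else W i j • single i j (1 : ℂ)) =
          single i j (W i j) - (if i = j then W i i • single i0 i0 (1 : ℂ) else 0) := by
      intro i j
      by_cases hij : i = j
      · subst hij; simp [smul_sub]
      · simp [hij]
    simp only [this, Finset.sum_sub_distrib, Finset.sum_ite_eq, Finset.mem_univ, if_true, hz,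
      sub_zero]
  rw [hdec]
  refine S.sum_mem fun i _ => S.sum_mem fun j _ => ?_
  by_cases hij : i = j
  · rw [if_pos hij]
    by_cases hi : i = i0
    · simp [hi]
    · exact S.smul_mem _ (e2 (Ne.symm hi))
  · rw [if_neg hij]; exact S.smul_mem _ (e1 hij)

/-! ### The span statement -/

/-- Scalar coordinates to a tangent vector. -/
noncomputable def zvec (p : Tup (h + 1 + 2) r) (E : Mat r) :
    (Fin (h + 1 + 2) → ℂ × ℂ) →ₗ[ℂ] Tup (h + 1 + 2) r where
  toFun z := Surface.vec p fun i => ((z i).1 • E, (z i).2 • E)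
  map_add' z z' := by
    funext i; simp [Surface.vec, add_smul, mul_add]
  map_smul' c z := by
    funext i; simp [Surface.vec, smul_smul]

/-- The scalar linearised equation in weight `(i,j)`. -/
def Cond (ω : ℂ) (i j : ℕ) (z : Fin (h + 1 + 2) → ℂ × ℂ) : Prop :=
  (z 0).1 * (ω ^ j * (1 - (ω ^ i)⁻¹)) + (z 0).2 * ((ω ^ i)⁻¹ * (ω ^ j - 1)) +
    (z 1).1 * ((ω ^ i)⁻¹ * (1 - ω ^ j)) + (z 1).2 * (ω ^ j * ((ω ^ i)⁻¹ - 1)) +
    (z (0 : Fin (h + 1)).succ.succ).1 * (ω ^ j * (1 - (ω ^ i)⁻¹)) +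
    (z (0 : Fin (h + 1)).succ.succ).2 * ((ω ^ i)⁻¹ * (ω ^ j - 1)) = 0

/-- All weight `(i,j)` solutions are spanned by velocities, for all Weyl pairs. -/
def Good (R : Subring ℂ) (h r : ℕ) (ω : ℂ) (i j : ℕ) : Prop :=
  ∀ A B : Mat r, Weyl ω A B → (A, B) ∈ NSet ω R r → ∀ z : Fin (h + 1 + 2) → ℂ × ℂ, Cond ω i j z →
    zvec (Mir h A B (A, B)) (wt A B i j) z ∈ Submodule.span ℂ (Vel ω R (Mir h A B (A, B)))

lemma zvec_apply (p : Tup (h + 1 + 2) r) (E : Mat r) (z : Fin (h + 1 + 2) → ℂ × ℂ) (i : Fin (h + 1 + 2)) :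
    zvec p E z i = ((z i).1 • ((p i).1 * E), (z i).2 • ((p i).2 * E)) := by
  simp [zvec, Surface.vec]

lemma zvec_smul (p : Tup (h + 1 + 2) r) (E : Mat r) (c : ℂ) (z : Fin (h + 1 + 2) → ℂ × ℂ) :
    zvec p (c • E) z = zvec p E (c • z) := by
  funext i
  simp [zvec_apply, smul_smul, mul_comm c]

lemma Good.congr {ω : ℂ} (hω : IsPrimitiveRoot ω r) {i j i' j' : ℕ} (hi : i ≡ i' [MOD r])
    (hj : j ≡ j' [MOD r]) (hG : Good R h r ω i j) : Good R h r ω i' j' := by
  intro A B hW hN z hz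
  have hc : ∀ {X : Mat r}, Sim (X ^ r) 1 → ∀ {a b : ℕ}, a ≡ b [MOD r] → Sim (X ^ b) (X ^ a) := by
    intro X hX a b hab
    have key : ∀ a, Sim (X ^ a) (X ^ (a % r)) ∧ Sim (X ^ (a % r)) (X ^ a) := by
      intro a
      obtain ⟨ν, hν, hν'⟩ := hX
      have : X ^ a = ν ^ (a / r) • X ^ (a % r) := by
        conv_lhs => rw [← Nat.div_add_mod a r, pow_add, pow_mul, hν', smul_pow, one_pow,
          smul_mul_assoc, one_mul]
      exact ⟨⟨_, pow_ne_zero _ hν, this⟩, ⟨(ν ^ (a / r))⁻¹, inv_ne_zero (pow_ne_zero _ hν), by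
        rw [this, inv_smul_smul₀ (pow_ne_zero _ hν)]⟩⟩
    refine (key b).1.trans ?_
    rw [show b % r = a % r from hab.symm]
    exact (key a).2
  obtain ⟨c, hc0, hce⟩ : Sim (wt A B i' j') (wt A B i j) :=
    (hc hW.sim_pow_r_left hi).mul (hc hW.sim_pow_r_right hj)
  rw [hce, zvec_smul]
  refine hG A B hW hN _ ?_
  have e : ∀ {a b : ℕ}, a ≡ b [MOD r] → ω ^ a = ω ^ b := fun {a b} hab => by
    rw [← pow_mod_orderOf, ← pow_mod_orderOf (n := b), ← hω.eq_orderOf]; exact congrArg _ hab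
  simp only [Cond, Pi.smul_apply, Prod.smul_fst, Prod.smul_snd, smul_eq_mul] at hz ⊢
  rw [e hi, e hj]
  linear_combination c * hz

lemma vel_of (M : Move ω R h r) (m : ℕ) {p v : Tup (h + 1 + 2) r}
    (hd : HasDerivAt (fun u => M.flow m u p) v 0) : v ∈ Submodule.span ℂ (Vel ω R p) :=
  Submodule.subset_span ⟨_, M.nice m, hd⟩

/-- A single coordinate vector. -/
abbrev sgl (i : Fin (h + 1 + 2)) (a : ℂ × ℂ) : Fin (h + 1 + 2) → ℂ × ℂ := Pi.single i a

lemma base {ω : ℂ} (hr : 2 ≤ r) {d : ℕ} (hd : ¬ r ∣ d) : Good R h r ω d 0 := by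
  intro A B hW hN z hz
  obtain ⟨hω, ha, hb, hab, ⟨ν, hν, hν'⟩, -⟩ := id hW
  have htr : (A ^ d).trace = 0 := by simpa [wt] using hW.wt_trace (i := d) (j := 0) (fun e => hd e.1)
  rw [show wt A B d 0 = A ^ d by simp [wt]]
  set E := A ^ d with hE
  set p := Mir h A B (A, B)
  set S := (Submodule.span ℂ (Vel ω R p)).comap (zvec p E)
  have hEA : E * A = A * E := by rw [hE, ← pow_succ, ← pow_succ']
  have hEB : E * B = ω ^ d • (B * E) := pow_comm_left hab d
  have htl : tlPow d A = E := by simp [tlPow, ← hE, htr]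
  have hX := hasDerivAt_expu E
  have hY := hasDerivAt_expu_neg E
  have g02 : sgl 0 (0, 1) ∈ S := by
    refine vel_of (twist0 ω R h r) d (hasDerivAt_pi.2 fun i => ?_)
    refine Fin.cases ?_ (Fin.cases ?_ (Fin.cases ?_ fun k => ?_)) i
    · simpa [p, twist0, Move.flow, with01, htl, zvec_apply, sgl, Pi.single_apply, Prod.mk_zero_zero] using
        (hasDerivAt_const (0 : ℂ) A).prodMk (hX.const_mul B)
    all_goals simpa [p, twist0, Move.flow, with01, zvec_apply, sgl, Pi.single_apply, Prod.mk_zero_zero, Fin.ext_iff] using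
      hasDerivAt_const (0 : ℂ) _
  have g11 : sgl 1 (1, 0) ∈ S := by
    refine vel_of (twist1 ω R h r) d (hasDerivAt_pi.2 fun i => ?_)
    refine Fin.cases ?_ (Fin.cases ?_ (Fin.cases ?_ fun k => ?_)) i
    · simpa [p, twist1, Move.flow, with01, zvec_apply, sgl, Pi.single_apply, Prod.mk_zero_zero] using
        hasDerivAt_const (0 : ℂ) (A, B)
    · simpa [p, twist1, Move.flow, with01, htl, zvec_apply, sgl, Pi.single_apply, Prod.mk_zero_zero] using
        (hX.const_mul B).prodMk (hasDerivAt_const (0 : ℂ) A)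
    · simpa [p, twist1, Move.flow, with01, zvec_apply, sgl, Pi.single_apply, Prod.mk_zero_zero, Fin.ext_iff] using
        hasDerivAt_const (0 : ℂ) (A, B)
    · simpa [p, with01, Move.flow, twist1, slide01, zvec_apply, sgl, Pi.single_apply,
        Prod.mk_zero_zero, Fin.ext_iff] using
        hasDerivAt_const (0 : ℂ) ((1 : Mat r), (1 : Mat r))
  have g01 : sgl 0 (-1, ω ^ d - 1) + sgl 1 (ω ^ d, -1) ∈ S := by
    refine vel_of (slide01 ω R h r) d (hasDerivAt_pi.2 fun i => ?_)
    have hw : (slide01 ω R h r).word p = A := by simp [p, slide01, adj_mul hb]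
    refine Fin.cases ?_ (Fin.cases ?_ (Fin.cases ?_ fun k => ?_)) i
    · have hc := (hY.const_mul A).prodMk ((hX.mul_const B).mul hY)
      simp only [Move.flow, hw, htl]
      simpa [p, slide01, with01, zvec_apply, sgl, Pi.single_apply, Prod.mk_zero_zero, exp_zero, hEB, sub_smul,
        ← sub_eq_add_neg] using hc
    · have hc := (hX.mul_const B).prodMk (hY.const_mul A)
      simp only [Move.flow, hw, htl]
      simpa [p, slide01, with01, zvec_apply, sgl, Pi.single_apply, Prod.mk_zero_zero, hEB] using hc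
    · simpa [p, slide01, Move.flow, with01, zvec_apply, sgl, Pi.single_apply, Prod.mk_zero_zero, Fin.ext_iff] using
        hasDerivAt_const (0 : ℂ) (A, B)
    · simpa [p, with01, Move.flow, twist1, slide01, zvec_apply, sgl, Pi.single_apply,
        Prod.mk_zero_zero, Fin.ext_iff] using
        hasDerivAt_const (0 : ℂ) ((1 : Mat r), (1 : Mat r))
  let m := (r - 1) * d
  obtain ⟨c, hc0, hc⟩ : Sim (A.adjugate ^ m) E := by
    have h1 : A.adjugate = ν⁻¹ • A ^ (r - 1) := by
      have : A.adjugate * A ^ r = A ^ (r - 1) := by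
        have hh : A ^ r = A * A ^ (r - 1) := by rw [← pow_succ']; congr 1; omega
        rw [hh, ← mul_assoc, adj_mul ha, one_mul]
      rw [← this, hν', mul_smul_comm, mul_one, inv_smul_smul₀ hν]
    rw [h1, smul_pow, ← pow_mul]
    refine Sim.trans ⟨_, pow_ne_zero _ (inv_ne_zero hν), rfl⟩ ?_
    obtain ⟨q, hq⟩ : ∃ q, r = q + 2 := ⟨r - 2, by omega⟩
    refine ⟨ν ^ (q * d), pow_ne_zero _ hν, ?_⟩
    rw [hE, show (r - 1) * ((r - 1) * d) = r * (q * d) + d by subst hq; simp; ring,
      pow_add, pow_mul, hν', smul_pow, one_pow, smul_mul_assoc, one_mul]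
  have htl' : tlPow m A.adjugate = c • E := by simp [tlPow, hc, trace_smul, htr]
  have hX' := hasDerivAt_expu (c • E)
  have hY' := hasDerivAt_expu_neg (c • E)
  have gj : ∀ k : Fin h, sgl k.succ.succ.succ (0, 1) ∈ S ∧ sgl k.succ.succ.succ (1, 0) ∈ S := by
    intro k
    have hmid : mid k.succ p = ω • (1 : Mat r) := by
      rw [mid_eq, List.finRange_succ, Fin.val_succ, List.take_succ_cons, List.map_cons,
        List.prod_cons, ← List.map_take, List.map_map]
      have : ∀ L : List (Fin h),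
          (L.map ((fun i : Fin (h + 1) => comm (p i.succ.succ)) ∘ Fin.succ)).prod = 1 := by
        intro L; induction L with
        | nil => rfl
        | cons a L ih => simp [p, Surface.comm_one, ih]
      rw [this, mul_one]
      exact hN.2.2.1
    have hcancel : ∀ X : Mat r, (mid k.succ p).adjugate * X * mid k.succ p = X := by
      intro X
      have hd := mid_det k.succ (Mir_mem_hom (h := h) ha hb hN)
      have h1 : (ω • (1 : Mat r)).adjugate * (ω • (1 : Mat r)) = 1 := adj_mul (hmid ▸ hd)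
      rw [hmid, mul_assoc, show X * (ω • (1 : Mat r)) = ω • (1 : Mat r) * X by
        rw [mul_smul_comm, mul_one, smul_mul_assoc, one_mul], ← mul_assoc, h1, one_mul]
    have hw : (slide1 ω R r k.succ (Fin.succ_ne_zero k)).word p = A.adjugate := by
      show (p 1).2.adjugate * mid k.succ p * (p k.succ.succ.succ).1 * _ = _
      have hd := mid_det k.succ (Mir_mem_hom (h := h) ha hb hN)
      simp [p, mul_assoc, mul_adj hd]
    have hv : c • (sgl 1 (-1, 0) + sgl k.succ.succ.succ (0, -1) :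
        Fin (h + 1 + 2) → ℂ × ℂ) ∈ S := by
      refine vel_of (slide1 ω R r k.succ (Fin.succ_ne_zero k)) m (hasDerivAt_pi.2 fun i => ?_)
      refine Fin.cases ?_ (Fin.cases ?_ (Fin.cases ?_ fun l => ?_)) i
      · simpa [p, slide1, with1j, Move.flow, zvec_apply, sgl, Pi.single_apply, Prod.mk_zero_zero, Fin.ext_iff] using
          hasDerivAt_const (0 : ℂ) (A, B)
      · have hh := (hY'.const_mul B).prodMk ((hX'.mul_const A).mul hY')
        simp only [Move.flow, hw, htl']
        simpa [p, slide1, with1j, zvec_apply, sgl, Pi.single_apply, Prod.mk_zero_zero, exp_zero, hEA, Fin.ext_iff] using hh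
      · simpa [p, slide1, with1j_succ, Move.flow, zvec_apply, sgl, Pi.single_apply,
          Prod.mk_zero_zero, Fin.ext_iff] using hasDerivAt_const (0 : ℂ) (A, B)
      · simp only [Move.flow, hw, htl']
        by_cases hl : l = k
        · have hh := (hX'.mul hY').prodMk hY'
          subst hl
          simpa [p, slide1, with1j_succ, hcancel, zvec_apply, sgl, Pi.single_apply, Prod.mk_zero_zero, exp_zero,
            Fin.ext_iff] using hh
        · simpa [p, slide1, with1j_succ, hl, zvec_apply, sgl, Pi.single_apply, Prod.mk_zero_zero, Fin.ext_iff,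
            Fin.val_inj] using hasDerivAt_const (0 : ℂ) ((1 : Mat r), (1 : Mat r))
    have e2 : (sgl k.succ.succ.succ (0, 1) : Fin (h + 1 + 2) → ℂ × ℂ) ∈ S := by
      have := S.sub_mem (S.neg_mem (S.smul_mem c⁻¹ hv)) g11
      rw [inv_smul_smul₀ hc0] at this
      convert this using 1
      funext l
      refine Fin.cases ?_ (Fin.cases ?_ (Fin.cases ?_ fun q => ?_)) l <;>
        simp [sgl, Pi.single_apply, Fin.ext_iff]
      split_ifs <;> simp
    refine ⟨e2, ?_⟩
    let L : Tup (h + 1 + 2) r →ₗ[ℂ] Tup (h + 1 + 2) r :=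
      { toFun := fun v => Function.update v k.succ.succ.succ
          ((v k.succ.succ.succ).1 + (v k.succ.succ.succ).2, (v k.succ.succ.succ).2)
        map_add' := fun v w => by
          funext l; by_cases hl : l = k.succ.succ.succ
          · subst hl; simp [add_add_add_comm]
          · simp [hl]
        map_smul' := fun a v => by
          funext l; by_cases hl : l = k.succ.succ.succ
          · subst hl; simp
          · simp [hl] }
    have hp : p ∈ Hom ω (h + 1 + 2) r := Mir_mem_hom ha hb hN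
    have hfix : (symJ ω R r k).fwd p = p := funext fun l => by
      refine Fin.cases rfl (Fin.cases rfl (Fin.cases rfl fun q => ?_)) l
      by_cases hq : q = k <;> simp [p, symJ, slotSym, hq, twA, idSym]
    have := Vel.map (symJ ω R r k) hp L (fun cv v hv hc0' => by
      refine hasDerivAt_pi.2 fun l => ?_
      have hl := hasDerivAt_pi.1 hv l
      refine Fin.cases (fun hl => ?_) (Fin.cases (fun hl => ?_)
        (Fin.cases (fun hl => ?_) fun q hl => ?_)) l hl
      · simpa [L, symJ, slotSym, idSym, Function.update_apply, Fin.ext_iff] using hl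
      · simpa [L, symJ, slotSym, idSym, Function.update_apply, Fin.ext_iff] using hl
      · simpa [L, symJ, slotSym, idSym, Function.update_apply, Fin.ext_iff] using hl
      · by_cases hq : q = k
        · subst hq
          simpa [L, symJ, slotSym, twA, hc0', p] using ((dfst hl).mul (dsnd hl)).prodMk (dsnd hl)
        · simpa [L, symJ, slotSym, idSym, hq, Function.update_apply] using hl) e2
    rw [hfix] at this
    have e : L (zvec p E (sgl k.succ.succ.succ (0, 1))) =
        zvec p E (sgl k.succ.succ.succ (1, 0) + sgl k.succ.succ.succ (0, 1)) := by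
      funext l
      by_cases hl : l = k.succ.succ.succ
      · subst hl; simp [L, zvec_apply, p]
      · simp [L, zvec_apply, hl]
    rw [e] at this
    simpa using S.sub_mem (show _ ∈ S from this) e2
  have gN : sgl 1 (-1, 1) + sgl (0 : Fin (h + 1)).succ.succ (1, 0) ∈ S := by
    have hv : c • (sgl 1 (-1, 1) + sgl (0 : Fin (h + 1)).succ.succ (1, 0) :
        Fin (h + 1 + 2) → ℂ × ℂ) ∈ S := by
      refine vel_of (slideN ω R h r) m (hasDerivAt_pi.2 fun i => ?_)
      have hw : (slideN ω R h r).word p = A.adjugate := by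
        show (p 1).1.adjugate * (p 1).2.adjugate *
          ((p (0 : Fin (h + 1)).succ.succ).1 * (p (0 : Fin (h + 1)).succ.succ).2 *
            (p (0 : Fin (h + 1)).succ.succ).1.adjugate) = A.adjugate
        simp only [p, Mir_one, Mir_two]
        calc B.adjugate * A.adjugate * (A * B * A.adjugate)
            = B.adjugate * (A.adjugate * A) * B * A.adjugate := by simp only [mul_assoc]
          _ = A.adjugate := by rw [adj_mul ha, mul_one, adj_mul hb, one_mul]
      have hf : ∀ u, (slideN ω R h r).flow m u p = with1j 0 p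
          (B * exp (-(u • c • E)), exp (u • c • E) * A) (exp (u • c • E) * A, B) := fun u => by
        simp only [Move.flow, hw, htl']; rfl
      simp only [hf]
      refine Fin.cases ?_ (Fin.cases ?_ (Fin.cases ?_ fun l => ?_)) i
      · show HasDerivAt (fun _ : ℂ => (A, B)) _ 0
        simp [p, zvec_apply, sgl, Prod.mk_zero_zero, Fin.ext_iff]
        exact hasDerivAt_const (0 : ℂ) (A, B)
      · have hh := (hY'.const_mul B).prodMk (hX'.mul_const A)
        show HasDerivAt (fun u => (B * exp (-(u • c • E)), exp (u • c • E) * A)) _ 0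
        simp [p, zvec_apply, sgl, Pi.single_apply, Fin.ext_iff, smul_smul, ← hEA] at hh ⊢
        exact hh
      · have hh := (hX'.mul_const A).prodMk (hasDerivAt_const (0 : ℂ) B)
        show HasDerivAt (fun u => (exp (u • c • E) * A, B)) _ 0
        simp [p, zvec_apply, sgl, Pi.single_apply, Fin.ext_iff, smul_smul, ← hEA] at hh ⊢
        exact hh
      · simpa [p, with1j_succ, zvec_apply, sgl, Pi.single_apply, Prod.mk_zero_zero, Fin.ext_iff]
          using hasDerivAt_const (0 : ℂ) ((1 : Mat r), (1 : Mat r))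
    simpa [inv_smul_smul₀ hc0] using S.smul_mem c⁻¹ hv
  have gW : sgl 0 (0, ω ^ d - 1) + sgl 1 (ω ^ d - 1, 0) +
      sgl (0 : Fin (h + 1)).succ.succ (0, ω ^ d - 1) ∈ S := by
    show zvec p E _ ∈ Submodule.span ℂ (Vel ω R p)
    convert vel_conj (R := R) (Mir_mem_hom (h := h) ha hb hN) htr using 1
    funext s
    refine Fin.cases ?_ (Fin.cases ?_ (Fin.cases ?_ fun q => ?_)) s <;>
      simp [p, zvec_apply, sgl, Pi.single_apply, Prod.mk_zero_zero, Fin.ext_iff, hEA, hEB,
        sub_smul]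
  have hd1 : ω ^ d - 1 ≠ 0 := sub_ne_zero.2 fun e => hd ((hω.pow_eq_one_iff_dvd d).1 e)
  have hzc : (z (1 : Fin (h + 1 + 2))).2 = (z 0).1 + (z (0 : Fin (h + 1)).succ.succ).1 := by
    have h1 : (ω ^ d)⁻¹ - 1 ≠ 0 :=
      sub_ne_zero.2 fun e => hd ((hω.pow_eq_one_iff_dvd d).1 (inv_eq_one.1 e))
    have := hz
    simp only [Cond, pow_zero, sub_self, mul_zero, one_mul, add_zero] at this
    exact mul_right_cancel₀ h1 (by linear_combination this)
  show z ∈ S
  have g : (sgl 0 (1, 0) + sgl 1 (0, 1) : Fin (h + 1 + 2) → ℂ × ℂ) ∈ S := by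
    convert S.neg_mem (S.sub_mem (S.sub_mem g01 (S.smul_mem (ω ^ d - 1) g02))
      (S.smul_mem (ω ^ d) g11)) using 1
    funext l
    refine Fin.cases ?_ (Fin.cases ?_ (Fin.cases ?_ fun q => ?_)) l <;>
      simp [sgl, Fin.ext_iff]
  have g22 : (sgl (0 : Fin (h + 1)).succ.succ (0, 1) : Fin (h + 1 + 2) → ℂ × ℂ) ∈ S := by
    convert S.sub_mem (S.sub_mem (S.smul_mem (ω ^ d - 1)⁻¹ gW) g02) g11 using 1
    funext l
    refine Fin.cases ?_ (Fin.cases ?_ (Fin.cases ?_ fun q => ?_)) l <;>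
      simp [sgl, Fin.ext_iff, hd1]
  have hrest : ∀ q : Fin h, Pi.single q.succ.succ.succ (z q.succ.succ.succ) ∈ S := fun q => by
    convert S.add_mem (S.smul_mem (z q.succ.succ.succ).1 (gj q).2)
      (S.smul_mem (z q.succ.succ.succ).2 (gj q).1) using 1
    rw [← Pi.single_smul', ← Pi.single_smul', ← Pi.single_add]
    simp
  rw [← Finset.univ_sum_single z, Fin.sum_univ_succ, Fin.sum_univ_succ, Fin.sum_univ_succ]
  rw [← add_assoc, ← add_assoc]
  refine S.add_mem ?_ (S.sum_mem fun q _ => hrest q)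
  convert S.add_mem (S.add_mem (S.add_mem (S.add_mem (S.smul_mem (z 0).2 g02) (S.smul_mem (z 1).1 g11))
    (S.smul_mem (z (0 : Fin (h + 1)).succ.succ).2 g22)) (S.smul_mem (z 0).1 g))
    (S.smul_mem (z (0 : Fin (h + 1)).succ.succ).1 (S.add_mem gN g11)) using 1
  funext l
  refine Fin.cases ?_ (Fin.cases ?_ (Fin.cases ?_ fun q => ?_)) l <;>
    simp [sgl, Fin.ext_iff, hzc, Prod.ext_iff]

lemma stepA {ω : ℂ} (hr : 2 ≤ r) {i j : ℕ} (hG : Good R h r ω (i + j) j) : Good R h r ω i j := by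
  intro A B' hW' hN z hz
  obtain ⟨-, ha, hb, -, -, -⟩ := id hW'
  obtain ⟨B, hW, hB'⟩ : ∃ B, Weyl ω A B ∧ B' = B * A :=
    ⟨B' * A.adjugate, hW'.subA hr, (adj_mul_cancel ha).symm⟩
  subst hB'
  have hN0 : (A, B) ∈ NSet ω R r := by
    have := int_pair (ψ := twB r) (fun P h1 h2 => (integral_twB P h1 h2).2) hN
    simpa [twB, mul_adj_cancel ha] using this
  have hω0 : ω ≠ 0 := hW.ne_zero hr
  obtain ⟨-, -, hbB, hab, -, -⟩ := id hW
  obtain ⟨c, hc0, hc⟩ : Sim (wt A (B * A) i j) (wt A B (i + j) j) := by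
    have h1 : B * A = ω⁻¹ • (A * B) := by rw [hab, inv_smul_smul₀ hω0]
    rw [wt, wt, pow_add, mul_assoc]
    refine (Sim.refl _).mul ((sim_mul_pow (inv_ne_zero hω0) h1 j).trans ?_)
    exact ⟨((ω ^ j) ^ j)⁻¹, inv_ne_zero (pow_ne_zero _ (pow_ne_zero _ hω0)), by
      rw [pow_comm_left (pow_comm_right hab j) j, inv_smul_smul₀ (pow_ne_zero _ (pow_ne_zero _ hω0))]⟩
  set a := ω ^ j
  let w : Fin (h + 1 + 2) → ℂ × ℂ := Fin.cons ((z 0).1, ((z 0).2 - (z 0).1) * a)
    (Fin.cons (((z 1).1 - (z 1).2) * a, (z 1).2)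
      (Fin.cons ((z (0 : Fin (h + 1)).succ.succ).1,
        ((z (0 : Fin (h + 1)).succ.succ).2 - (z (0 : Fin (h + 1)).succ.succ).1) * a)
        fun q => z q.succ.succ.succ))
  have hw : Cond ω (i + j) j w := by
    have h1 : ω ^ i ≠ 0 := pow_ne_zero _ hω0
    have h2 : ω ^ j ≠ 0 := pow_ne_zero _ hω0
    simp only [Cond] at hz ⊢
    simp only [w, a, Fin.cons_zero, Fin.cons_one, Fin.cons_succ, pow_add]
    field_simp at hz ⊢
    linear_combination hz
  have hmem := hG A B hW hN0 (c • w) (by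
    simp only [Cond, Pi.smul_apply, Prod.smul_fst, Prod.smul_snd, smul_eq_mul] at hw ⊢
    linear_combination c * hw)
  let L : Tup (h + 1 + 2) r →ₗ[ℂ] Tup (h + 1 + 2) r :=
    { toFun := fun v => Fin.cons ((v 0).1, (v 0).2 * A + B * (v 0).1)
        (Fin.cons ((v 1).1 * A + B * (v 1).2, (v 1).2)
          (Fin.cons ((v (0 : Fin (h + 1)).succ.succ).1,
            (v (0 : Fin (h + 1)).succ.succ).2 * A + B * (v (0 : Fin (h + 1)).succ.succ).1)
            fun q => v q.succ.succ.succ))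
      map_add' := fun v w => by
        funext l
        refine Fin.cases ?_ (Fin.cases ?_ (Fin.cases ?_ fun q => ?_)) l <;> simp [add_mul, mul_add] <;> abel
      map_smul' := fun s v => by
        funext l
        refine Fin.cases ?_ (Fin.cases ?_ (Fin.cases ?_ fun q => ?_)) l <;> simp }
  have := Vel.map (symA ω R h r) (Mir_mem_hom ha hbB hN0) L (fun cv v hv hc0' => by
    refine hasDerivAt_pi.2 fun l => ?_
    have hl := hasDerivAt_pi.1 hv l
    refine Fin.cases (fun hl => ?_) (Fin.cases (fun hl => ?_)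
      (Fin.cases (fun hl => ?_) fun q hl => ?_)) l hl
    · simpa [L, symA, slotSym, twB, hc0'] using (dfst hl).prodMk ((dsnd hl).mul (dfst hl))
    · simpa [L, symA, slotSym, twA, hc0'] using ((dfst hl).mul (dsnd hl)).prodMk (dsnd hl)
    · simpa [L, symA, slotSym, twB, hc0'] using (dfst hl).prodMk ((dsnd hl).mul (dfst hl))
    · simpa [L, symA, slotSym, idSym] using hl) hmem
  have hfwd : (symA ω R h r).fwd (Mir h A B (A, B)) = Mir h A (B * A) (A, B * A) := funext fun l => by
    refine Fin.cases ?_ (Fin.cases ?_ (Fin.cases ?_ fun q => ?_)) l <;> simp [symA, slotSym, twA, twB, idSym]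
  rw [hfwd] at this
  have hEA : wt A B (i + j) j * A = a⁻¹ • (A * wt A B (i + j) j) := by
    rw [hW.wt_left, inv_smul_smul₀ (pow_ne_zero _ hω0)]
  rw [hc, zvec_smul]
  convert this using 1
  have ha0 : a ≠ 0 := pow_ne_zero _ hω0
  funext l
  refine Fin.cases ?_ (Fin.cases ?_ (Fin.cases ?_ fun q => ?_)) l
  · simp only [L, zvec_apply, Mir_zero, w, LinearMap.coe_mk, AddHom.coe_mk, Fin.cons_zero,
      Pi.smul_apply, Prod.smul_fst, Prod.smul_snd, smul_eq_mul, smul_mul_assoc, mul_smul_comm]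
    refine Prod.ext rfl ?_
    simp only [mul_assoc B, hEA, mul_smul_comm, smul_smul, ← add_smul]
    congr 1
    field_simp
    ring
  · simp only [L, zvec_apply, slot1_eq, Mir_one, w, LinearMap.coe_mk, AddHom.coe_mk, Fin.cons_one,
      Fin.cons_zero, Pi.smul_apply, Prod.smul_fst, Prod.smul_snd, smul_eq_mul, smul_mul_assoc,
      mul_smul_comm]
    refine Prod.ext ?_ rfl
    simp only [mul_assoc B, hEA, mul_smul_comm, smul_smul, ← add_smul]
    congr 1
    field_simp
    ring
  · simp only [L, zvec_apply, Mir_two, w, LinearMap.coe_mk, AddHom.coe_mk, Fin.cons_zero, Fin.cons_succ,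
      Pi.smul_apply, Prod.smul_fst, Prod.smul_snd, smul_eq_mul, smul_mul_assoc, mul_smul_comm]
    refine Prod.ext rfl ?_
    simp only [mul_assoc B, hEA, mul_smul_comm, smul_smul, ← add_smul]
    congr 1
    field_simp
    ring
  · simp [L, zvec_apply, w, smul_smul, mul_comm]

lemma stepB {ω : ℂ} (hr : 2 ≤ r) {i j : ℕ} (hG : Good R h r ω i (i + j)) : Good R h r ω i j := by
  intro A' B hW' hN z hz
  obtain ⟨-, ha, hb, -, -, -⟩ := id hW'
  obtain ⟨A, hW, hA'⟩ : ∃ A, Weyl ω A B ∧ A' = A * B :=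
    ⟨A' * B.adjugate, hW'.subB hr, (adj_mul_cancel hb).symm⟩
  subst hA'
  have hN0 : (A, B) ∈ NSet ω R r := by
    have := int_pair (ψ := twA r) (fun P h1 h2 => (integral_twA P h1 h2).2) hN
    simpa [twA, mul_adj_cancel hb] using this
  have hω0 : ω ≠ 0 := hW.ne_zero hr
  obtain ⟨-, haA, -, hab, -, -⟩ := id hW
  obtain ⟨c, hc0, hc⟩ : Sim (wt (A * B) B i j) (wt A B i (i + j)) := by
    rw [wt, wt, pow_add, ← mul_assoc]
    exact (sim_mul_pow hω0 hab i).mul (Sim.refl _)
  set b := (ω ^ i)⁻¹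
  let w : Fin (h + 1 + 2) → ℂ × ℂ := Fin.cons (((z 0).1 - (z 0).2) * b, (z 0).2)
    (Fin.cons ((z 1).1, ((z 1).2 - (z 1).1) * b)
      (Fin.cons (((z (0 : Fin (h + 1)).succ.succ).1 - (z (0 : Fin (h + 1)).succ.succ).2) * b,
        (z (0 : Fin (h + 1)).succ.succ).2) fun q => z q.succ.succ.succ))
  have hw : Cond ω i (i + j) w := by
    have h1 : ω ^ i ≠ 0 := pow_ne_zero _ hω0
    have h2 : ω ^ j ≠ 0 := pow_ne_zero _ hω0
    simp only [Cond] at hz ⊢
    simp only [w, b, Fin.cons_zero, Fin.cons_one, Fin.cons_succ, pow_add]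
    field_simp at hz ⊢
    linear_combination hz
  have hmem := hG A B hW hN0 (c • w) (by
    simp only [Cond, Pi.smul_apply, Prod.smul_fst, Prod.smul_snd, smul_eq_mul] at hw ⊢
    linear_combination c * hw)
  let L : Tup (h + 1 + 2) r →ₗ[ℂ] Tup (h + 1 + 2) r :=
    { toFun := fun v => Fin.cons ((v 0).1 * B + A * (v 0).2, (v 0).2)
        (Fin.cons ((v 1).1, (v 1).2 * B + A * (v 1).1)
          (Fin.cons ((v (0 : Fin (h + 1)).succ.succ).1 * B + A * (v (0 : Fin (h + 1)).succ.succ).2,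
            (v (0 : Fin (h + 1)).succ.succ).2) fun q => v q.succ.succ.succ))
      map_add' := fun v w => by
        funext l
        refine Fin.cases ?_ (Fin.cases ?_ (Fin.cases ?_ fun q => ?_)) l <;> simp [add_mul, mul_add] <;> abel
      map_smul' := fun s v => by
        funext l
        refine Fin.cases ?_ (Fin.cases ?_ (Fin.cases ?_ fun q => ?_)) l <;> simp }
  have := Vel.map (symB ω R h r) (Mir_mem_hom haA hb hN0) L (fun cv v hv hc0' => by
    refine hasDerivAt_pi.2 fun l => ?_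
    have hl := hasDerivAt_pi.1 hv l
    refine Fin.cases (fun hl => ?_) (Fin.cases (fun hl => ?_)
      (Fin.cases (fun hl => ?_) fun q hl => ?_)) l hl
    · simpa [L, symB, slotSym, twA, hc0'] using ((dfst hl).mul (dsnd hl)).prodMk (dsnd hl)
    · simpa [L, symB, slotSym, twB, hc0'] using (dfst hl).prodMk ((dsnd hl).mul (dfst hl))
    · simpa [L, symB, slotSym, twA, hc0'] using ((dfst hl).mul (dsnd hl)).prodMk (dsnd hl)
    · simpa [L, symB, slotSym, idSym] using hl) hmem
  have hfwd : (symB ω R h r).fwd (Mir h A B (A, B)) = Mir h (A * B) B (A * B, B) := funext fun l => by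
    refine Fin.cases ?_ (Fin.cases ?_ (Fin.cases ?_ fun q => ?_)) l <;> simp [symB, slotSym, twA, twB, idSym]
  rw [hfwd] at this
  have hEB := hW.wt_right i (i + j)
  rw [hc, zvec_smul]
  convert this using 1
  have hi0 : ω ^ i ≠ 0 := pow_ne_zero _ hω0
  funext l
  refine Fin.cases ?_ (Fin.cases ?_ (Fin.cases ?_ fun q => ?_)) l
  · simp only [L, zvec_apply, Mir_zero, w, LinearMap.coe_mk, AddHom.coe_mk, Fin.cons_zero,
      Pi.smul_apply, Prod.smul_fst, Prod.smul_snd, smul_eq_mul, smul_mul_assoc, mul_smul_comm]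
    refine Prod.ext ?_ rfl
    simp only [mul_assoc A, hEB, mul_smul_comm, smul_smul, ← add_smul]
    congr 1
    simp only [b]
    field_simp
    ring
  · simp only [L, zvec_apply, slot1_eq, Mir_one, w, LinearMap.coe_mk, AddHom.coe_mk, Fin.cons_one,
      Fin.cons_zero, Pi.smul_apply, Prod.smul_fst, Prod.smul_snd, smul_eq_mul, smul_mul_assoc,
      mul_smul_comm]
    refine Prod.ext rfl ?_
    simp only [mul_assoc A, hEB, mul_smul_comm, smul_smul, ← add_smul]
    congr 1
    simp only [b]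
    field_simp
    ring
  · simp only [L, zvec_apply, Mir_two, w, LinearMap.coe_mk, AddHom.coe_mk, Fin.cons_zero, Fin.cons_succ,
      Pi.smul_apply, Prod.smul_fst, Prod.smul_snd, smul_eq_mul, smul_mul_assoc, mul_smul_comm]
    refine Prod.ext ?_ rfl
    simp only [mul_assoc A, hEB, mul_smul_comm, smul_smul, ← add_smul]
    congr 1
    simp only [b]
    field_simp
    ring
  · simp [L, zvec_apply, w, smul_smul, mul_comm]

lemma good_all {ω : ℂ} (hω : IsPrimitiveRoot ω r) (hr : 2 ≤ r) {i j : ℕ}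
    (hij : ¬(r ∣ i ∧ r ∣ j)) : Good R h r ω i j := by
  have iterA : ∀ k {i j : ℕ}, Good R h r ω (i + k * j) j → Good R h r ω i j := by
    intro k
    induction k with
    | zero => intro i j hG; simpa using hG
    | succ k ih =>
      intro i j hG
      exact ih (stepA hr (by convert hG using 1; ring))
  have iterB : ∀ k {i j : ℕ}, Good R h r ω i (j + k * i) → Good R h r ω i j := by
    intro k
    induction k with
    | zero => intro i j hG; simpa using hG
    | succ k ih =>
      intro i j hG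
      exact ih (stepB hr (by convert hG using 1; ring))
  suffices main : ∀ n i j, i + j ≤ n → 0 < i → ¬(r ∣ i ∧ r ∣ j) → Good R h r ω i j by
    rcases Nat.eq_zero_or_pos i with h0 | h0
    · subst h0
      exact Good.congr hω (show r ≡ 0 [MOD r] by simp [Nat.ModEq]) rfl
        (main _ r j le_rfl (by omega) (fun e => hij ⟨dvd_zero r, e.2⟩))
    · exact main _ i j le_rfl h0 hij
  intro n
  induction n with
  | zero => intro i j h1 h2; omega
  | succ n ih =>
    intro i j hn hi hij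
    rcases Nat.eq_zero_or_pos j with h0 | h0
    · subst h0; exact base hr fun e => hij ⟨e, dvd_zero r⟩
    · rcases lt_or_ge j i with hji | hji
      · refine iterA (r - 1) (Good.congr hω ?_ rfl (ih (i - j) j (by omega) (by omega) ?_))
        · obtain ⟨q, rfl⟩ : ∃ q, r = q + 1 := ⟨r - 1, by omega⟩
          rw [Nat.add_sub_cancel, Nat.ModEq,
            show i + q * j = (i - j) + (q + 1) * j by rw [add_mul, one_mul]; omega]
          simp
        · rintro ⟨e1, e2⟩
          exact hij ⟨by simpa [Nat.sub_add_cancel hji.le] using Nat.dvd_add e1 e2, e2⟩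
      · refine iterB (r - 1) (Good.congr hω rfl ?_ (ih i (j - i) (by omega) hi ?_))
        · obtain ⟨q, rfl⟩ : ∃ q, r = q + 1 := ⟨r - 1, by omega⟩
          rw [Nat.add_sub_cancel, Nat.ModEq,
            show j + q * i = (j - i) + (q + 1) * i by rw [add_mul, one_mul]; omega]
          simp
        · rintro ⟨e1, e2⟩
          exact hij ⟨e1, by simpa [Nat.sub_add_cancel hji] using Nat.dvd_add e2 e1⟩

/-- Every solution of the linearised equations is a combination of velocities. -/
lemma tan_in_span {ω : ℂ} {A B : Mat r} (hr : 2 ≤ r) (hW : Weyl ω A B)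
    (hN : (A, B) ∈ NSet ω R r) (hsp : Submodule.span ℂ
      (Set.range fun q : Fin r × Fin r => A ^ (q.1 : ℕ) * B ^ (q.2 : ℕ)) = ⊤)
    (Y : Tup (h + 1 + 2) r) (hY : Tan A B Y) :
    Surface.vec (Mir h A B (A, B)) Y ∈ Submodule.span ℂ (Vel ω R (Mir h A B (A, B))) := by
  obtain ⟨hω, ha, hb, hab, -, -⟩ := id hW
  have hω0 := hW.ne_zero hr
  let e : Fin r × Fin r → Mat r := fun q => wt A B q.1 q.2
  have hli : LinearIndependent ℂ e := linearIndependent_of_top_le_span_of_card_eq_finrank hsp.ge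
    (by simp [Module.finrank_matrix])
  let bs := Module.Basis.mk hli hsp.ge
  have hrepr : ∀ M : Mat r, M = ∑ q, bs.repr M q • e q := fun M =>
    (bs.sum_repr M).symm.trans (Finset.sum_congr rfl fun q _ => by rw [show bs q = e q from Module.Basis.mk_apply _ _ q])
  let z : Fin r × Fin r → Fin (h + 1 + 2) → ℂ × ℂ := fun q i =>
    (bs.repr (Y i).1 q, bs.repr (Y i).2 q)
  have hdiv : ∀ q : Fin r × Fin r, r ∣ (q.1 : ℕ) ∧ r ∣ (q.2 : ℕ) → (q.1 : ℕ) = 0 ∧ (q.2 : ℕ) = 0 :=
    fun q hq => ⟨Nat.eq_zero_of_dvd_of_lt hq.1 q.1.2, Nat.eq_zero_of_dvd_of_lt hq.2 q.2.2⟩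
  have htr : ∀ M : Mat r, M.trace = 0 → ∀ q : Fin r × Fin r, r ∣ (q.1 : ℕ) ∧ r ∣ (q.2 : ℕ) →
      bs.repr M q = 0 := by
    intro M hM q hq
    have := congrArg Matrix.trace (hrepr M)
    rw [hM, trace_sum, Finset.sum_eq_single q] at this
    · have he : (e q).trace = r := by simp [e, wt, (hdiv q hq).1, (hdiv q hq).2]
      rw [trace_smul, he, smul_eq_mul] at this
      exact (mul_eq_zero.1 this.symm).resolve_right (by exact_mod_cast (by omega : r ≠ 0))
    · intro q' _ hne
      rw [trace_smul, hW.wt_trace, smul_zero]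
      intro hq'
      exact hne (Prod.ext (Fin.ext ((hdiv q' hq').1.trans (hdiv q hq).1.symm))
        (Fin.ext ((hdiv q' hq').2.trans (hdiv q hq).2.symm)))
    · simp
  have hco : ∀ q : Fin r × Fin r, Cond ω q.1 q.2 (z q) := by
    have hd : delta A B (Y 0) + delta B A (Y 1) + delta A B (Y (0 : Fin (h + 1)).succ.succ) = ∑ q : Fin r × Fin r,
        ((z q 0).1 * (ω ^ (q.2 : ℕ) * (1 - (ω ^ (q.1 : ℕ))⁻¹)) +
          (z q 0).2 * ((ω ^ (q.1 : ℕ))⁻¹ * (ω ^ (q.2 : ℕ) - 1)) +
          (z q 1).1 * ((ω ^ (q.1 : ℕ))⁻¹ * (1 - ω ^ (q.2 : ℕ))) +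
          (z q 1).2 * (ω ^ (q.2 : ℕ) * ((ω ^ (q.1 : ℕ))⁻¹ - 1)) +
          (z q (0 : Fin (h + 1)).succ.succ).1 * (ω ^ (q.2 : ℕ) * (1 - (ω ^ (q.1 : ℕ))⁻¹)) +
          (z q (0 : Fin (h + 1)).succ.succ).2 * ((ω ^ (q.1 : ℕ))⁻¹ * (ω ^ (q.2 : ℕ) - 1))) • e q := by
      have hA : ∀ q, A * e q * A.adjugate = ω ^ (q.2 : ℕ) • e q := fun q => by
        rw [hW.wt_left, smul_mul_assoc, mul_adj_cancel ha]
      have hB : ∀ q, B * e q * B.adjugate = (ω ^ (q.1 : ℕ))⁻¹ • e q := fun q => by
        have : B * e q = (ω ^ (q.1 : ℕ))⁻¹ • (e q * B) := by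
          rw [hW.wt_right, inv_smul_smul₀ (pow_ne_zero _ hω0)]
        rw [this, smul_mul_assoc, mul_adj_cancel hb]
      have hAB : ∀ (P Q : Mat r) (q), P * Q * e q * (P * Q).adjugate =
          P * (Q * e q * Q.adjugate) * P.adjugate := fun P Q q => by
        simp only [adjugate_mul_distrib, mul_assoc]
      conv_lhs => rw [delta, delta, hrepr (Y 0).1, hrepr (Y 0).2, hrepr (Y 1).1, hrepr (Y 1).2,
        delta, hrepr (Y (0 : Fin (h + 1)).succ.succ).1, hrepr (Y (0 : Fin (h + 1)).succ.succ).2]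
      simp only [Finset.mul_sum, Finset.sum_mul, mul_smul_comm, smul_mul_assoc, hAB, hA, hB,
        smul_smul, ← Finset.sum_sub_distrib, ← Finset.sum_add_distrib, ← sub_smul, ← add_smul]
      refine Finset.sum_congr rfl fun q _ => ?_
      congr 1
      simp only [z]
      ring
    intro q
    have := Fintype.linearIndependent_iff.1 hli _ (hd.symm.trans hY.2) q
    exact this
  have hv : Surface.vec (Mir h A B (A, B)) Y = ∑ q, zvec (Mir h A B (A, B)) (e q) (z q) := by
    funext i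
    simp only [Finset.sum_apply, zvec_apply, Surface.vec, z]
    refine Prod.ext ?_ ?_
    · simp only [Prod.fst_sum, ← mul_smul_comm, ← Finset.mul_sum, ← hrepr]
    · simp only [Prod.snd_sum, ← mul_smul_comm, ← Finset.mul_sum, ← hrepr]
  rw [hv]
  refine Submodule.sum_mem _ fun q _ => ?_
  by_cases hq : r ∣ (q.1 : ℕ) ∧ r ∣ (q.2 : ℕ)
  · have : z q = 0 := funext fun i => Prod.ext (htr _ (hY.1 i).1 q hq) (htr _ (hY.1 i).2 q hq)
    simp [this]
  · exact good_all hω hr hq A B hW hN _ (hco q)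

end Vale.Agent.P002.Twisted
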